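import Vale.Agent.P354CS.Sys
import Vale.Agent.P354HU.Uniq

open scoped ContDiff
open Set

namespace Vale.Agent.P354CU

open Vale.Agent.P354C Vale.Agent.P354H Vale.Agent.P354CS
open Vale.Agent.P354n (R4)

/-- The time multiplied by ε. -/
noncomputable def rt (ε : ℝ) : ℝ × X3 →L[ℝ] ℝ × X3 :=
  (ε • ContinuousLinearMap.fst ℝ ℝ X3).prod (.snd ℝ ℝ X3)

theorem rt_ap (ε : ℝ) (p : ℝ × X3) : rt ε p = (ε * p.1, p.2) := rfl

theorem d_rt {G : Type} [NormedAddCommGroup G] [NormedSpace ℝ G] {ε : ℝ} {Z : ℝ × X3 → G}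
    {p : ℝ × X3} (h : DifferentiableAt ℝ Z (rt ε p)) :
    dt (fun p => Z (rt ε p)) p = ε • dt Z (rt ε p) ∧
      ∀ j, dx j (fun p => Z (rt ε p)) p = dx j Z (rt ε p) := by
  have d : fderiv ℝ (fun p => Z (rt ε p)) p = _ := (h.hasFDerivAt.comp p (rt ε).hasFDerivAt).fderiv
  have e1 : rt ε (1, 0) = ε • (1, 0) := by simp [rt_ap]
  have e2 : ∀ j, rt ε (0, e j) = (0, e j) := fun j => by simp [rt_ap]
  simp only [dt, dx, d, ContinuousLinearMap.comp_apply, e1, e2, map_smul, implies_true, and_self]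

/-- Uniqueness in a domain of dependence, to the future (ε = 1) and to the past (ε = -1). -/
theorem uniqE {G : Type} [NormedAddCommGroup G] [InnerProductSpace ℝ G] [FiniteDimensional ℝ G]
    {ι : Type} [Fintype ι] {φ : ι → ℝ × X3 → ℝ} {A : Fin 3 → ℝ × X3 → G →L[ℝ] G}
    {Z : ℝ × X3 → G} {O D : Set (ℝ × X3)} {ε t0 T K : ℝ} (hε : ε = 1 ∨ ε = -1)
    (hO : IsOpen O) (hD : IsCompact D) (hs : D ⊆ O) (hφ : ∀ i, ContDiff ℝ 1 (φ i))
    (hA : ∀ j, ContDiffOn ℝ 1 (A j) O) (hZ : ContDiffOn ℝ 1 Z O)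
    (H : ∀ p, ε * (p.1 - t0) ∈ Icc 0 T → (∀ i, φ i p < 0) → p ∈ D ∧ (∀ j, Sym (A j p)) ∧
      ‖dt Z p - ∑ j, A j p (dx j Z p)‖ ≤ K * ‖Z p‖ ∧
      ∀ i z, ε * ∑ j, dx j (φ i) p * inner ℝ z (A j p z) ≤ ε * (dt (φ i) p * ‖z‖ ^ 2))
    (h0 : ∀ x, (∀ i, φ i (t0, x) < 0) → Z (t0, x) = 0) :
    ∀ p, ε * (p.1 - t0) ∈ Icc 0 T → (∀ i, φ i p < 0) → Z p = 0 := by
  have e2 : ε * ε = 1 := by rcases hε with rfl | rfl <;> norm_num
  have e3 : |ε| = 1 := by rcases hε with rfl | rfl <;> norm_num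
  have rr : ∀ p, rt ε (rt ε p) = p := fun p => by simp [rt_ap, ← mul_assoc, e2]
  intro p hp hp'
  have := P354HU.uniq G ι (fun i p => φ i (rt ε p)) (fun j p => ε • A j (rt ε p))
    (fun p => Z (rt ε p)) (rt ε ⁻¹' O) (rt ε '' D) (ε * t0) (ε * t0 + T) K
    (hO.preimage (rt ε).continuous) (hD.image (rt ε).continuous)
    (by rintro _ ⟨q, hq, rfl⟩; simpa [rr] using hs hq)
    (fun i => (hφ i).comp (rt ε).contDiff)
    (fun j => ((hA j).comp (rt ε).contDiff.contDiffOn fun _ h => h).const_smul ε)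
    (hZ.comp (rt ε).contDiff.contDiffOn fun _ h => h) (fun q hq hq' => ?_) (fun x hx => ?_)
    (rt ε p) ⟨by simp only [rt_ap]; linarith [hp.1], by simp only [rt_ap]; linarith [hp.2]⟩
    (by simpa only [rr] using hp')
  · simpa only [rr] using this
  · have e : ε * ((rt ε q).1 - t0) = q.1 - ε * t0 := by
      simp only [rt_ap, mul_sub, ← mul_assoc, e2, one_mul]
    obtain ⟨h1, h2, h3, h4⟩ := H (rt ε q) (by rw [e]; exact ⟨by linarith [hq.1], by linarith [hq.2]⟩)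
      hq'
    have d := d_rt (((hZ.contDiffAt (hO.mem_nhds (hs h1))).differentiableAt one_ne_zero))
    refine ⟨⟨_, h1, rr q⟩, fun j v w => by simp [inner_smul_left, inner_smul_right, h2 j v w], ?_,
      fun i z => ?_⟩
    · simp only [d.1, d.2, smul_apply, ← Finset.smul_sum, ← smul_sub, norm_smul, Real.norm_eq_abs,
        e3, one_mul]
      exact h3
    · have d' := d_rt (p := q) (ε := ε) ((hφ i).differentiable one_ne_zero _)
      have h5 := h4 i z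
      simp only [d'.1, d'.2, smul_apply, inner_smul_right, smul_eq_mul]
      rw [Finset.mul_sum] at h5
      refine le_trans (le_of_eq (Finset.sum_congr rfl fun j _ => by ring)) (h5.trans_eq (by ring))
  · have e : rt ε (ε * t0, x) = (t0, x) := by simp [rt_ap, ← mul_assoc, e2]
    simp only [e] at hx ⊢
    exact h0 x hx

theorem pair {a b c d x1 x2 y1 y2 g : ℝ} (ha : 0 ≤ a) (hb : 0 ≤ b) (h : c ^ 2 + d ^ 2 ≤ a * b)
    (hg : g ^ 2 ≤ (c ^ 2 + d ^ 2) * ((x1 ^ 2 + x2 ^ 2) * (y1 ^ 2 + y2 ^ 2))) :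
    0 ≤ b * (x1 ^ 2 + x2 ^ 2) + a * (y1 ^ 2 + y2 ^ 2) + 2 * g := by
  have hX : 0 ≤ x1 ^ 2 + x2 ^ 2 := by positivity
  have hY : 0 ≤ y1 ^ 2 + y2 ^ 2 := by positivity
  generalize x1 ^ 2 + x2 ^ 2 = X at *
  generalize y1 ^ 2 + y2 ^ 2 = Y at *
  have h1 := mul_le_mul_of_nonneg_right h (mul_nonneg hX hY)
  have h2 : (2 * g) ^ 2 ≤ (b * X + a * Y) ^ 2 := by nlinarith [sq_nonneg (b * X - a * Y)]
  have h3 := abs_le_of_sq_le_sq' h2 (by positivity)
  linarith [h3.1]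

/-- The principal symbol is nonnegative on future causal covectors. -/
theorem tab_pos {f : Fin 4 → ℝ} (h0 : 0 ≤ f 0) (h1 : 0 ≤ f 1) (h : f 2 ^ 2 + f 3 ^ 2 ≤ f 0 * f 1)
    (x : Ix → ℝ) : 0 ≤ ∑ i, x i * tab (PT i) f x := by
  have k1 := pair (x1 := x .a1) (x2 := x .a2) (y1 := x .be1) (y2 := x .be2)
    (g := f 2 * (-(x .a1 * x .be1) - x .a2 * x .be2) + f 3 * (x .a1 * x .be2 - x .a2 * x .be1))
    h0 h1 h (by nlinarith [sq_nonneg (f 3 * (-(x .a1 * x .be1) - x .a2 * x .be2) -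
      f 2 * (x .a1 * x .be2 - x .a2 * x .be1))])
  have k2 := pair (x1 := x .be1) (x2 := x .be2) (y1 := x .rho) (y2 := x .sig)
    (g := f 2 * (-(x .be1 * x .rho) - x .be2 * x .sig) + f 3 * (x .be1 * x .sig - x .be2 * x .rho))
    h0 h1 h (by nlinarith [sq_nonneg (f 3 * (-(x .be1 * x .rho) - x .be2 * x .sig) -
      f 2 * (x .be1 * x .sig - x .be2 * x .rho))])
  have k3 := pair (x1 := x .rho) (x2 := x .sig) (y1 := x .bb1) (y2 := x .bb2)
    (g := f 2 * (x .rho * x .bb1 - x .sig * x .bb2) + f 3 * (x .rho * x .bb2 + x .sig * x .bb1))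
    h0 h1 h (by nlinarith [sq_nonneg (f 3 * (x .rho * x .bb1 - x .sig * x .bb2) -
      f 2 * (x .rho * x .bb2 + x .sig * x .bb1))])
  have k4 := pair (x1 := x .bb1) (x2 := x .bb2) (y1 := x .ab1) (y2 := x .ab2)
    (g := f 2 * (x .bb1 * x .ab1 + x .bb2 * x .ab2) + f 3 * (x .bb1 * x .ab2 - x .bb2 * x .ab1))
    h0 h1 h (by nlinarith [sq_nonneg (f 3 * (x .bb1 * x .ab1 + x .bb2 * x .ab2) -
      f 2 * (x .bb1 * x .ab2 - x .bb2 * x .ab1))])
  have kn := mul_nonneg h1 (show 0 ≤ x .O ^ 2 + x .b1 ^ 2 + x .b2 ^ 2 + x .P11 ^ 2 + x .P12 ^ 2 +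
    x .P21 ^ 2 + x .P22 ^ 2 + x .om ^ 2 + x .p1 ^ 2 + x .p2 ^ 2 + x .r0 ^ 2 + x .r1 ^ 2 +
    x .r2 ^ 2 + x .B1 ^ 2 + x .B2 ^ 2 + x .Y11 ^ 2 + x .Y12 ^ 2 + x .Y21 ^ 2 + x .Y22 ^ 2 by
      positivity)
  have kl := mul_nonneg h0 (show 0 ≤ x .omb ^ 2 + x .q1 ^ 2 + x .q2 ^ 2 + x .A1 ^ 2 + x .A2 ^ 2 +
    x .X11 ^ 2 + x .X12 ^ 2 + x .X21 ^ 2 + x .X22 ^ 2 by positivity)
  refine (add_nonneg (add_nonneg (add_nonneg k1 k2) (add_nonneg k3 k4))
    (add_nonneg kn kl)).trans_eq ?_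
  simp only [sum_Ix, Ix.all, PT, tab, cN, cL, angN, angL, ai, List.map_cons, List.map_nil,
    List.sum_cons, List.sum_nil, List.cons_append, List.nil_append, List.append_nil,
    Matrix.cons_val_zero, Matrix.cons_val_one]
  push_cast
  ring

/-- The causal inequality for the principal coefficients at the value u of the unknowns. -/
theorem causal_ineq {ε : ℝ} (hε : ε = 1 ∨ ε = -1) {U : R4 → Ix → ℝ} {φ : R4 → ℝ} {p : R4}
    (h : Causal ε U φ p) (z : V) :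
    ε * ∑ j : Fin 3, dx j φ p * inner ℝ z (B PT (E0 j.succ + EL j.succ (U p)) (Di z)) ≤
      ε * (dt φ p * ‖z‖ ^ 2) := by
  have e2 : ε * ε = 1 := by rcases hε with rfl | rfl <;> norm_num
  have k := tab_pos (f := fun k => ε * fderiv ℝ φ p (fr (U p) k)) h.1 h.2.1
    (by linear_combination (exp := 1) h.2.2 + (fderiv ℝ φ p (fr (U p) 2) ^ 2 +
      fderiv ℝ φ p (fr (U p) 3) ^ 2 - fderiv ℝ φ p (fr (U p) 0) * fderiv ℝ φ p (fr (U p) 1)) * e2)
    (Di z)
  have e : (fun k => ε * fderiv ℝ φ p (fr (U p) k)) =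
      ε • ∑ μ, fderiv ℝ φ p (bas μ) • (E0 μ + EL μ (U p)) := by
    funext k
    simp only [fr, vec_eq, map_sum, map_smul, ← E_eq, Pi.smul_apply, Finset.sum_apply, smul_eq_mul,
      mul_comm]
  rw [← neg_neg (∑ i, _), ← inner_B1, e, Fin.sum_univ_succ, EL_zero, add_zero] at k
  simp only [map_smul, map_add (B PT) (_ • _), map_sum, smul_apply, add_apply, sum_apply, B1_time,
    inner_smul_right, inner_add_right, inner_sum, inner_neg_right, real_inner_self_eq_norm_sq,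
    bas_succ] at k
  simp only [dt, dx]
  have e0 : bas 0 = (1, 0) := rfl
  rw [e0] at k
  linarith

/-- The vector sc * u. -/
noncomputable def Dm : (Ix → ℝ) →L[ℝ] V :=
  (EuclideanSpace.equiv Ix ℝ).symm.toContinuousLinearMap.comp
    (ContinuousLinearMap.pi fun i => sc i • ContinuousLinearMap.proj i)

theorem Di_Dm (u : Ix → ℝ) : Di (Dm u) = u := by
  funext i
  simp [Di_ap, Dm, (sc_pos i).ne']

theorem uni : UNI := by
  intro U U' ι _ φ Ω D ε t0 T hε hO hD hs hU hU' hφ H h0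
  have s : ContDiffOn ℝ ∞ U Ω := contDiffOn_pi.2 hU
  have s' : ContDiffOn ℝ ∞ U' Ω := contDiffOn_pi.2 hU'
  have sW : ContDiffOn ℝ ∞ (fun p => Dm (U p - U' p)) Ω := Dm.contDiff.comp_contDiffOn (s.sub s')
  have pe : pert U' (fun p => Dm (U p - U' p)) = U := by
    funext p
    simp [pert_eq, Di_Dm]
  have c : ContinuousOn (fun p => (sysK U').b p + (sysK U').q p (Dm (U p - U' p))) Ω :=
    ((continuousOn_const.add (Lb.continuous.comp_continuousOn s'.continuousOn)).add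
      (continuousOn_finsetSum _ fun j _ => (Lc _).continuous.comp_continuousOn
        ((s'.continuousOn_fderiv_of_isOpen hO (by simp)).clm_apply continuousOn_const))).add
      (continuousOn_const.clm_apply sW.continuousOn)
  obtain ⟨K, hK⟩ := hD.exists_bound_of_continuousOn (c.mono hs)
  intro p hp hp'
  have := uniqE (A := fun j p => cR Di (B PT (E0 j.succ)) + La j.succ (U p)) (K := K) hε hO hD hs hφ
    (fun j => contDiffOn_const.add ((La _).contDiff.comp_contDiffOn (s.of_le (by simp))))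
    (sW.of_le (by simp)) (fun q hq hq' => ?_) (fun x hx => by rw [h0 _ rfl hx, sub_self, map_zero])
    p hp hp'
  · simpa [Di_Dm, sub_eq_zero] using congrArg Di this
  obtain ⟨h1, h2, h3, h4⟩ := H q hq hq'
  have a : ∀ (j : Fin 3) z, (cR Di (B PT (E0 j.succ)) + La j.succ (U q)) z =
      B PT (E0 j.succ + EL j.succ (U q)) (Di z) := fun j z => by simp [La, cR_ap]
  have n := hO.mem_nhds (hs h1)
  have ho := (holds_iff ((s'.contDiffAt n).differentiableAt (by simp))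
    ((sW.contDiffAt n).differentiableAt (by simp))).2 fun i => by rw [pe, h2 i, h3 i]
  refine ⟨h1, fun j v w => ?_, ?_, fun i z => ?_⟩
  · rw [a, a]
    exact sym_B1 _ v w
  · rw [ho]
    simp only [a, A_ap, Di_Dm, add_sub_cancel, add_sub_cancel_left]
    exact ap_le (hK q h1) le_rfl
  · simp only [a]
    exact causal_ineq hε (h4 i) z

end Vale.Agent.P354CU
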